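import Vale.Agent.P128.Bonnet.Defs
import Vale.Agent.P128.Connected.SecondVar
import Vale.Agent.P128.Connected.Separating.Translate

/-!
# Unit density: length of a translated part of the singular set

For a set in an annulus which meets every circle, the length is compared with the width: the
excess controls how far the cone pieces are from radial, and so the first order change of the
length under a radial cutoff of a translation.
-/

noncomputable section

namespace Vale.Agent.P128.Bonnet.Unit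

open MeasureTheory Filter Metric Set Islands Connected
open scoped Topology ENNReal NNReal ContDiff

/-- Distance from `x`. -/
def rad (x y : ℂ) : ℝ := ‖y - x‖

lemma lipschitz_rad (x : ℂ) : LipschitzWith 1 (rad x) :=
  LipschitzWith.of_dist_le_mul fun a b => by
    rw [NNReal.coe_one, one_mul, Real.dist_eq, dist_eq_norm, rad, rad]
    exact (abs_norm_sub_norm_le _ _).trans_eq (by rw [sub_sub_sub_cancel_right])

lemma continuous_rad (x : ℂ) : Continuous (rad x) := (lipschitz_rad x).continuous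

lemma norm_dir {x y : ℂ} (h : y ≠ x) : ‖dir x y‖ = 1 := by
  have h' : ‖y - x‖ ≠ 0 := norm_ne_zero_iff.2 (sub_ne_zero.2 h)
  simp [dir, h']

lemma norm_dir_le (x y : ℂ) : ‖dir x y‖ ≤ 1 := by
  rcases eq_or_ne y x with h | h
  · simp [dir, h]
  · rw [norm_dir h]

lemma dot_dir_self {x y : ℂ} (h : y ≠ x) : dot (dir x y) (y - x) = rad x y := by
  have h' : ‖y - x‖ ≠ 0 := norm_ne_zero_iff.2 (sub_ne_zero.2 h)
  have e : dot (y - x) (y - x) = ‖y - x‖ ^ 2 := (norm_sq_eq_dot _).symm
  have : dot (dir x y) (y - x) = ‖y - x‖⁻¹ * dot (y - x) (y - x) := by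
    simp [dir, dot]; ring
  rw [this, e, rad]
  field_simp

/-- Directions are Lipschitz away from the centre. -/
lemma norm_dir_sub_le {x y z : ℂ} {r : ℝ} (hr : 0 < r) (hy : r ≤ ‖y - x‖) (hz : z ≠ x) :
    ‖dir x y - dir x z‖ ≤ 2 * ‖y - z‖ / r := by
  have hy0 : 0 < ‖y - x‖ := hr.trans_le hy
  have hz0 : 0 < ‖z - x‖ := norm_pos_iff.2 (sub_ne_zero.2 hz)
  have e : dir x y - dir x z =
      ‖y - x‖⁻¹ • (y - z) + (‖y - x‖⁻¹ - ‖z - x‖⁻¹) • (z - x) := by
    simp only [dir, sub_smul, smul_sub]; abel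
  rw [e]
  refine (norm_add_le _ _).trans ?_
  rw [norm_smul, norm_smul, Real.norm_eq_abs, Real.norm_eq_abs, abs_of_pos (inv_pos.2 hy0),
    inv_sub_inv hy0.ne' hz0.ne', abs_div, abs_of_pos (mul_pos hy0 hz0)]
  have h1 : |‖z - x‖ - ‖y - x‖| ≤ ‖y - z‖ := by
    refine (abs_norm_sub_norm_le _ _).trans_eq ?_
    rw [sub_sub_sub_cancel_right, norm_sub_rev]
  have e2 : |‖z - x‖ - ‖y - x‖| / (‖y - x‖ * ‖z - x‖) * ‖z - x‖ =
      |‖z - x‖ - ‖y - x‖| * ‖y - x‖⁻¹ := by field_simp
  rw [e2]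
  have h2 : ‖y - x‖⁻¹ ≤ r⁻¹ := inv_anti₀ hr hy
  calc ‖y - x‖⁻¹ * ‖y - z‖ + |‖z - x‖ - ‖y - x‖| * ‖y - x‖⁻¹
      ≤ r⁻¹ * ‖y - z‖ + ‖y - z‖ * r⁻¹ := by gcongr
    _ = 2 * ‖y - z‖ / r := by rw [div_eq_mul_inv]; ring

/-- The radius changes at most by the radial component of the chord at one of its ends. -/
lemma abs_rad_sub_le {x y z : ℂ} (hy : y ≠ x) (hz : z ≠ x) :
    |rad x z - rad x y| ≤ max |dot (dir x z) (z - y)| |dot (dir x y) (z - y)| := by
  have e : ∀ p q : ℂ, p ≠ x → rad x p - rad x q ≤ dot (dir x p) (p - q) := fun p q hp => by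
    have h1 : dot (dir x p) (q - x) ≤ rad x q := by
      refine (le_abs_self _).trans ((Connected.abs_dot_le _ _).trans ?_)
      exact (mul_le_of_le_one_left (norm_nonneg _) (norm_dir_le x p))
    have h2 : dot (dir x p) (p - q) = dot (dir x p) (p - x) - dot (dir x p) (q - x) := by
      simp [dot]; ring
    rw [h2, dot_dir_self hp]
    linarith
  rcases le_total (rad x y) (rad x z) with h | h
  · rw [abs_of_nonneg (sub_nonneg.2 h)]
    exact (e z y hz).trans ((le_abs_self _).trans (le_max_left _ _))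
  · rw [abs_of_nonpos (sub_nonpos.2 h), neg_sub]
    refine (e y z hy).trans ((le_abs_self _).trans ?_)
    refine le_trans (le_of_eq ?_) (le_max_right _ _)
    rw [← abs_neg]
    congr 1
    simp [dot]; ring

variable {x : ℂ} {r : ℝ} {S : Set ℂ}

/-- A set meeting all circles with radii in `I` is at least as long as `I`. -/
lemma volume_le_length {I : Set ℝ} (h : I ⊆ rad x '' S) :
    volume I ≤ Measure.hausdorffMeasure 1 S := by
  calc volume I ≤ volume (rad x '' S) := measure_mono h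
    _ = Measure.hausdorffMeasure 1 (rad x '' S) := by rw [hausdorffMeasure_real]
    _ ≤ ((1 : ℝ≥0) : ℝ≥0∞) ^ (1 : ℝ) * Measure.hausdorffMeasure 1 S :=
        (lipschitz_rad x).hausdorffMeasure_image_le zero_le_one _
    _ = _ := by simp

/-- The integral of a nonnegative radial function over a set meeting all circles is at least its
integral over the radii. -/
lemma setIntegral_rad_ge (hfin : Measure.hausdorffMeasure 1 S ≠ ⊤)
    {a b : ℝ} (hcov : Ioo a b ⊆ rad x '' S) {f : ℝ → ℝ} (hf : Continuous f) {B : ℝ}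
    (hB : ∀ s, |f s| ≤ B) (hf0 : ∀ s, 0 ≤ f s) :
    ∫ s in Ioo a b, f s ≤ ∫ y in S, f (rad x y) ∂Measure.hausdorffMeasure 1 := by
  set m := (Measure.hausdorffMeasure 1 : Measure ℂ)
  have : IsFiniteMeasure (m.restrict S) := isFiniteMeasure_restrict.2 hfin
  set μ := Measure.map (rad x) (m.restrict S)
  have hle : (volume : Measure ℝ).restrict (Ioo a b) ≤ μ := by
    refine Measure.le_iff.2 fun A hA => ?_
    rw [Measure.restrict_apply hA, Measure.map_apply (continuous_rad x).measurable hA,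
      Measure.restrict_apply ((continuous_rad x).measurable hA)]
    refine volume_le_length (x := x) ?_
    rintro s ⟨hsA, hs⟩
    obtain ⟨y, hy, rfl⟩ := hcov hs
    exact ⟨y, ⟨hsA, hy⟩, rfl⟩
  rw [← integral_map (f := f) (continuous_rad x).measurable.aemeasurable
    hf.aestronglyMeasurable]
  exact integral_mono_measure hle (Eventually.of_forall hf0)
    ((integrable_const B).mono' hf.aestronglyMeasurable
      (Eventually.of_forall fun s => by rw [Real.norm_eq_abs]; exact hB s))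

/-- Measurable sets of radii. -/
lemma volume_le_length_preimage {a b : ℝ} (hcov : Ioo a b ⊆ rad x '' S) (A : Set ℝ) :
    volume (A ∩ Ioo a b) ≤ Measure.hausdorffMeasure 1 (S ∩ rad x ⁻¹' A) := by
  refine volume_le_length (x := x) ?_
  rintro s ⟨hsA, hs⟩
  obtain ⟨y, hy, rfl⟩ := hcov hs
  exact ⟨y, ⟨hy, hsA⟩, rfl⟩

/-- A part of the annulus of inner radius `r` and outer radius `2 r` meeting every circle. -/
structure Band (x : ℂ) (r : ℝ) (S : Set ℂ) : Prop where
  pos : 0 < r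
  meas : MeasurableSet S
  fin : Measure.hausdorffMeasure 1 S ≠ ⊤
  pieces : ConePieces S
  inner : ∀ y ∈ S, r ≤ ‖y - x‖
  cover : Ioo r (2 * r) ⊆ rad x '' S

lemma Band.ne (h : Band x r S) {y : ℂ} (hy : y ∈ S) : y ≠ x := fun e => by
  have := h.inner y hy
  rw [e, sub_self, norm_zero] at this
  linarith [h.pos]

lemma Band.width_le (h : Band x r S) : r ≤ (Measure.hausdorffMeasure 1 S).toReal := by
  have := ENNReal.toReal_mono h.fin (volume_le_length h.cover)
  rwa [Real.volume_Ioo, ENNReal.toReal_ofReal (by linarith [h.pos]),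
    show 2 * r - r = r by ring] at this

/-- The moved set on a cone piece. -/
lemma shift_piece_lip {ζ : ℂ → ℝ} (hζ : IsTest univ ζ) {B : ℝ} (hb : ∀ y, ‖grad ζ y‖ ≤ B)
    {M : ℝ≥0} (hM : LipschitzWith M (fderiv ℝ ζ)) {a τ₀ x₁ : ℂ} (hτ : ‖τ₀‖ = 1) {E : Set ℂ}
    {η t : ℝ} (hη : 0 ≤ η) (ht : 0 ≤ t) (hna : ‖a‖ = t) (h0 : x₁ ∈ E)
    (hcone : ∀ p ∈ E, ∀ q ∈ E, ‖q - p‖ ≤ η ∧ ‖q - p - dot (q - p) τ₀ • τ₀‖ ≤ η * ‖q - p‖) :
    LipschitzOnWith (1 + dot a τ₀ * dot (grad ζ x₁) τ₀ + ‖a‖ ^ 2 * dot (grad ζ x₁) τ₀ ^ 2 / 2 +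
      η * (1 + t * B + t * M)).toNNReal (shift a ζ) E := by
  have hB0 : 0 ≤ B := (norm_nonneg _).trans (hb 0)
  set β := dot (grad ζ x₁) τ₀ with hβ
  set Λ := 1 + dot a τ₀ * β + ‖a‖ ^ 2 * β ^ 2 / 2 + η * (1 + t * B + t * M) with hΛ
  have hΛ0 : 0 ≤ Λ := by
    have := (norm_nonneg _).trans (norm_add_smul_le (a := a) hτ β)
    simp only [hΛ]
    positivity
  refine lipschitzOnWith_iff_norm_sub_le.2 fun y hy z hz => ?_
  rw [Real.coe_toNNReal _ hΛ0]
  obtain ⟨-, hrem⟩ := hcone z hz y hy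
  set w := y - z with hw
  set s := dot w τ₀
  set q := w - s • τ₀ with hq
  have hsub : |ζ y - ζ z - dot (grad ζ x₁) w| ≤ M * η * ‖w‖ := by
    rw [← fderiv_eq_dot_grad, ← Real.norm_eq_abs]
    refine (convex_closedBall x₁ η).norm_image_sub_le_of_norm_fderiv_le' (𝕜 := ℝ)
      (fun z _ => hζ.1.differentiable (by simp) z) (fun p hp => ?_)
      (by simpa [dist_eq_norm] using (hcone _ h0 z hz).1)
      (by simpa [dist_eq_norm] using (hcone _ h0 y hy).1)
    rw [mem_closedBall] at hp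
    refine le_trans ?_ (mul_le_mul_of_nonneg_left hp M.coe_nonneg)
    simpa [dist_eq_norm] using hM.dist_le_mul p x₁
  have e : shift a ζ y - shift a ζ z = s • (τ₀ + β • a) + (q +
      dot (grad ζ x₁) q • a + (ζ y - ζ z - dot (grad ζ x₁) w) • a) := by
    simp only [hq, hw, hβ, shift]
    apply Complex.ext <;> simp [dot] <;> ring
  have hs : |s| ≤ ‖w‖ := (Connected.abs_dot_le _ _).trans (by rw [hτ, mul_one])
  have n1 : ‖s • (τ₀ + β • a)‖ ≤ (Λ - η * (1 + t * B + t * M)) * ‖w‖ := by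
    rw [norm_smul, Real.norm_eq_abs, mul_comm]
    refine mul_le_mul ?_ hs (abs_nonneg _) ?_
    · simpa [hΛ] using norm_add_smul_le (a := a) (hτ) (β)
    · simpa [hΛ] using (norm_nonneg _).trans (norm_add_smul_le (a := a) (hτ) (β))
  have n2 : ‖dot (grad ζ x₁) q • a‖ ≤ t * B * η * ‖w‖ := by
    rw [norm_smul, Real.norm_eq_abs, hna]
    calc |dot (grad ζ x₁) q| * t ≤ B * (η * ‖w‖) * t := by
          gcongr
          exact (Connected.abs_dot_le _ _).trans (mul_le_mul (hb _) hrem (norm_nonneg _) hB0)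
      _ = _ := by ring
  have n3 : ‖(ζ y - ζ z - dot (grad ζ x₁) w) • a‖ ≤ t * M * η * ‖w‖ := by
    rw [norm_smul, Real.norm_eq_abs, hna]
    calc |ζ y - ζ z - dot (grad ζ x₁) w| * t ≤ M * η * ‖w‖ * t :=
          mul_le_mul_of_nonneg_right hsub ht
      _ = _ := by ring
  rw [e]
  refine (norm_add_le _ _).trans ?_
  refine (add_le_add n1 (norm_add₃_le.trans (add_le_add (add_le_add hrem n2) n3))).trans
    (le_of_eq ?_)
  ring

/-- The radii on a cone piece. -/
lemma rad_piece_lip (h : Band x r S) {τ₀ x₁ : ℂ} (hτ : ‖τ₀‖ = 1) {E : Set ℂ} {η : ℝ} (hη : 0 ≤ η)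
    (h0 : x₁ ∈ E) (hES : E ⊆ S)
    (hcone : ∀ p ∈ E, ∀ q ∈ E, ‖q - p‖ ≤ η ∧ ‖q - p - dot (q - p) τ₀ • τ₀‖ ≤ η * ‖q - p‖) :
    LipschitzOnWith (min 1 |dot (dir x x₁) τ₀| + (1 + 4 / r) * η).toNNReal (rad x) E := by
  have hr := h.pos
  set c := min 1 |dot (dir x x₁) τ₀| with hc
  set k₂ : ℝ := 1 + 4 / r with hk₂
  refine lipschitzOnWith_iff_norm_sub_le.2 fun y hy z hz => ?_
  have hc0 : 0 ≤ c := le_min zero_le_one (abs_nonneg _)
  rw [Real.coe_toNNReal _ (by positivity), Real.norm_eq_abs]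
  refine (abs_rad_sub_le (h.ne (hES hz)) (h.ne (hES hy))).trans ?_
  obtain ⟨-, hrem⟩ := hcone z hz y hy
  set w := y - z with hw
  have key : ∀ p ∈ E, |dot (dir x p) w| ≤ (c + k₂ * η) * ‖w‖ := by
    intro p hp
    have h1 : |dot (dir x p) τ₀| ≤ c + 2 / r * η := by
      have e1 : dot (dir x p) τ₀ = dot (dir x x₁) τ₀ +
          dot (dir x p - dir x x₁) τ₀ := by simp [dot]; ring
      have e2 : |dot (dir x p - dir x x₁) τ₀| ≤ 2 / r * η := by
        refine (Connected.abs_dot_le _ _).trans ?_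
        rw [hτ, mul_one]
        refine (norm_dir_sub_le hr (h.inner p (hES hp)) (h.ne (hES h0))).trans ?_
        rw [div_mul_eq_mul_div]
        gcongr
        exact (hcone _ h0 p hp).1
      have e3 : |dot (dir x p) τ₀| ≤ 1 :=
        (Connected.abs_dot_le _ _).trans (by rw [hτ, mul_one]; exact norm_dir_le _ _)
      simp only [hc, min_add]
      refine le_min ?_ ?_
      · have : 0 ≤ 2 / r * η := by positivity
        linarith
      · rw [e1]; exact (abs_add_le _ _).trans (add_le_add le_rfl e2)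
    have e : dot (dir x p) w = dot w τ₀ * dot (dir x p) τ₀ +
        dot (dir x p) (w - dot w τ₀ • τ₀) := by simp [dot]; ring
    rw [e]
    refine (abs_add_le _ _).trans ?_
    rw [abs_mul]
    have h2 : |dot w τ₀| ≤ ‖w‖ := (Connected.abs_dot_le _ _).trans (by rw [hτ, mul_one])
    have h3 : |dot (dir x p) (w - dot w τ₀ • τ₀)| ≤ η * ‖w‖ :=
      ((Connected.abs_dot_le _ _).trans (mul_le_of_le_one_left (norm_nonneg _) (norm_dir_le _ _))).trans
        hrem
    calc |dot w τ₀| * |dot (dir x p) τ₀| + |dot (dir x p) (w - dot w τ₀ • τ₀)|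
        ≤ ‖w‖ * (c + 2 / r * η) + η * ‖w‖ :=
          add_le_add (mul_le_mul h2 h1 (abs_nonneg _) (norm_nonneg _)) h3
      _ ≤ (c + k₂ * η) * ‖w‖ := by
          have : (0 : ℝ) ≤ 2 / r * η * ‖w‖ := by positivity
          simp only [hk₂]
          ring_nf at this ⊢
          linarith
  exact max_le (key y hy) (key z hz)

/-- The pieces which are not radial have little length. -/
lemma tsum_defect_le (h : Band x r S) {η : ℝ} (hη : 0 ≤ η) {E : ℕ → Set ℂ} {τ : ℕ → ℂ}
    {x₀ : ℕ → ℂ} (hEm : ∀ i, MeasurableSet (E i)) (hEd : Pairwise (Function.onFun Disjoint E))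
    (hτ : ∀ i, ‖τ i‖ = 1) (hES : ∀ i, E i ⊆ S) (hx₀ : ∀ i, (E i).Nonempty → x₀ i ∈ E i)
    (hcone : ∀ i, ∀ p ∈ E i, ∀ q ∈ E i,
      ‖q - p‖ ≤ η ∧ ‖q - p - dot (q - p) (τ i) • τ i‖ ≤ η * ‖q - p‖)
    (hrest : Measure.hausdorffMeasure 1 (S \ ⋃ i, E i) = 0) :
    ∑' i, ENNReal.ofReal (1 - min 1 |dot (dir x (x₀ i)) (τ i)|) *
        Measure.hausdorffMeasure 1 (E i) + ENNReal.ofReal r ≤
      ENNReal.ofReal (1 + (1 + 4 / r) * η) * Measure.hausdorffMeasure 1 S := by
  set m := (Measure.hausdorffMeasure 1 : Measure ℂ)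
  have hr := h.pos
  set k₂ : ℝ := 1 + 4 / r
  set c : ℕ → ℝ := fun i => min 1 |dot (dir x (x₀ i)) (τ i)| with hc
  have hrad : ∀ i, LipschitzOnWith (c i + k₂ * η).toNNReal (rad x) (E i) := fun i => by
    rcases (E i).eq_empty_or_nonempty with he | he
    · rw [he]; exact fun p hp => absurd hp (notMem_empty p)
    · exact rad_piece_lip h (hτ i) hη (hx₀ i he) (hES i) (hcone i)
  have h1 : ENNReal.ofReal r ≤ ∑' i, ENNReal.ofReal (c i + k₂ * η) * m (E i) := by
    calc ENNReal.ofReal r = volume (Ioo r (2 * r)) := by rw [Real.volume_Ioo]; ring_nf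
      _ ≤ volume (rad x '' (⋃ i, E i)) + volume (rad x '' (S \ ⋃ i, E i)) := by
          refine le_trans (measure_mono (h.cover.trans ?_)) (measure_union_le _ _)
          rw [← image_union]
          exact image_mono fun y hy => (em (y ∈ ⋃ i, E i)).imp id fun h' => ⟨hy, h'⟩
      _ = volume (rad x '' (⋃ i, E i)) := by
          have := (lipschitz_rad x).hausdorffMeasure_image_le zero_le_one (S \ ⋃ i, E i)
          rw [hrest, mul_zero, nonpos_iff_eq_zero, hausdorffMeasure_real] at this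
          rw [this, add_zero]
      _ ≤ ∑' i, volume (rad x '' E i) := by rw [image_iUnion]; exact measure_iUnion_le _
      _ ≤ _ := ENNReal.tsum_le_tsum fun i => by
          have := (hrad i).hausdorffMeasure_image_le (d := 1) zero_le_one
          rwa [ENNReal.rpow_one, hausdorffMeasure_real] at this
  refine (add_le_add_right h1 _).trans ?_
  rw [← ENNReal.tsum_add]
  calc ∑' i, (ENNReal.ofReal (1 - c i) * m (E i) + ENNReal.ofReal (c i + k₂ * η) * m (E i))
      = ∑' i, ENNReal.ofReal (1 + k₂ * η) * m (E i) := by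
        refine tsum_congr fun i => ?_
        have hc1 : c i ≤ 1 := min_le_left _ _
        have hc0 : 0 ≤ c i := le_min zero_le_one (abs_nonneg _)
        rw [← add_mul, ← ENNReal.ofReal_add (by linarith) (by positivity)]
        ring_nf
    _ = ENNReal.ofReal (1 + k₂ * η) * m (⋃ i, E i) := by
        rw [ENNReal.tsum_mul_left, measure_iUnion hEd hEm]
    _ ≤ _ := by gcongr; exact iUnion_subset hES

/-- The first order weight on a cone piece, read off at a point of the piece. -/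
lemma piece_weight_le (h : Band x r S) {ζ : ℂ → ℝ} {M : ℝ≥0}
    (hM : LipschitzWith M (fderiv ℝ ζ)) {f : ℝ → ℝ} {B : ℝ} (hf0 : ∀ s, 0 ≤ f s)
    (hfB : ∀ s, f s ≤ B) (hgrad : ∀ y, grad ζ y = -(f (rad x y) • dir x y))
    (hb : ∀ y, ‖grad ζ y‖ ≤ B) {v τ₀ x₁ y : ℂ} (hv : ‖v‖ = 1) {σ t η : ℝ} (hσ : |σ| = 1)
    (ht : 0 ≤ t) (hη : 0 ≤ η) (hτ : ‖τ₀‖ = 1) (h0 : x₁ ∈ S) (hy : y ∈ S) (hd : ‖x₁ - y‖ ≤ η) :
    1 + dot ((t * σ) • v) τ₀ * dot (grad ζ x₁) τ₀ +
        ‖(t * σ) • v‖ ^ 2 * dot (grad ζ x₁) τ₀ ^ 2 / 2 + η * (1 + t * B + t * M) ≤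
      1 + t * (-σ * f (rad x y) + B * ‖v - dir x y‖) + t ^ 2 * B ^ 2 +
        (2 * t * B * (1 - min 1 |dot (dir x x₁) τ₀|) +
          (1 + t * B + t * M + 2 * t * M + 2 * t * B * (1 + 4 / r)) * η) := by
  have hr := h.pos
  have hB0 : 0 ≤ B := (hf0 0).trans (hfB 0)
  have hna : ‖(t * σ) • v‖ = t := by
    rw [norm_smul, hv, mul_one, Real.norm_eq_abs, abs_mul, hσ, mul_one, abs_of_nonneg ht]
  set k₂ : ℝ := 1 + 4 / r with hk₂
  set c := min 1 |dot (dir x x₁) τ₀| with hc
  set β := dot (grad ζ x₁) τ₀ with hβ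
  set a := (t * σ) • v with ha
  have hc1 : c ≤ 1 := min_le_left _ _
  -- move the gradient from `x₁` to `y`
  have hβy : |β - dot (grad ζ y) τ₀| ≤ M * η := by
    have : β - dot (grad ζ y) τ₀ = (fderiv ℝ ζ x₁ - fderiv ℝ ζ y) τ₀ := by
      simp [hβ, fderiv_eq_dot_grad]
    rw [this, ← Real.norm_eq_abs]
    refine (ContinuousLinearMap.le_opNorm _ _).trans ?_
    rw [hτ, mul_one]
    refine le_trans ?_ (mul_le_mul_of_nonneg_left hd M.coe_nonneg)
    simpa [dist_eq_norm] using hM.dist_le_mul x₁ y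
  have hβB : |β| ≤ B := (Connected.abs_dot_le _ _).trans (by rw [hτ, mul_one]; exact hb _)
  set n := dir x y
  have hn : ‖n‖ = 1 := norm_dir (h.ne hy)
  set N := dot n τ₀
  have hN : c - k₂ * η ≤ |N| := by
    have e1 : dot (dir x x₁) τ₀ = N + dot (dir x x₁ - n) τ₀ := by
      simp [N, dot]; ring
    have e2 : |dot (dir x x₁ - n) τ₀| ≤ 2 / r * η := by
      refine (Connected.abs_dot_le _ _).trans ?_
      rw [hτ, mul_one]
      refine (norm_dir_sub_le hr (h.inner _ h0) (h.ne hy)).trans ?_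
      rw [div_mul_eq_mul_div]
      gcongr
    have e3 : c ≤ |N| + 2 / r * η :=
      (min_le_right _ _).trans (e1 ▸ (abs_add_le _ _).trans (add_le_add le_rfl e2))
    have : 2 / r * η ≤ k₂ * η := by
      gcongr; simp only [hk₂]
      have : (0 : ℝ) < 1 / r := by positivity
      ring_nf at this ⊢
      linarith
    linarith
  have hN1 : |N| ≤ 1 := (Connected.abs_dot_le _ _).trans (by rw [hn, hτ, one_mul])
  have hvN : |dot v τ₀ * N - 1| ≤ ‖v - n‖ + 2 * (1 - c + k₂ * η) := by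
    have e1 : dot v τ₀ * N - 1 = dot (v - n) τ₀ * N - (1 - N ^ 2) := by
      simp [N, dot]; ring
    rw [e1]
    refine (abs_sub _ _).trans (add_le_add ?_ ?_)
    · rw [abs_mul]
      calc |dot (v - n) τ₀| * |N| ≤ ‖v - n‖ * 1 :=
            mul_le_mul ((Connected.abs_dot_le _ _).trans (by rw [hτ, mul_one])) hN1 (abs_nonneg _)
              (norm_nonneg _)
        _ = _ := mul_one _
    · rw [abs_of_nonneg (by nlinarith [abs_nonneg N, sq_abs N] : 0 ≤ 1 - N ^ 2)]
      nlinarith [abs_nonneg N, sq_abs N]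
  have hgy : dot (grad ζ y) τ₀ = -(f (rad x y) * N) := by
    rw [hgrad]; simp [n, N, dot]; ring
  have hmain : dot a τ₀ * β ≤ t * (-σ * f (rad x y) +
      B * (‖v - n‖ + 2 * (1 - c + k₂ * η))) + t * (M * η) := by
    have e1 : dot a τ₀ * β = -(t * σ * f (rad x y)) +
        -(t * σ * f (rad x y) * (dot v τ₀ * N - 1)) +
        t * σ * dot v τ₀ * (β - dot (grad ζ y) τ₀) := by
      rw [hgy, ha]; simp [dot]; ring
    have b1 : -(t * σ * f (rad x y) * (dot v τ₀ * N - 1)) ≤
        t * (B * (‖v - n‖ + 2 * (1 - c + k₂ * η))) := by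
      refine (neg_le_abs _).trans ?_
      rw [abs_mul, abs_mul, abs_mul, hσ, mul_one, abs_of_nonneg ht, abs_of_nonneg (hf0 _),
        mul_assoc]
      exact mul_le_mul_of_nonneg_left
        (mul_le_mul (hfB _) hvN (abs_nonneg _) hB0) ht
    have b2 : t * σ * dot v τ₀ * (β - dot (grad ζ y) τ₀) ≤ t * (M * η) := by
      refine (le_abs_self _).trans ?_
      rw [abs_mul, abs_mul, abs_mul, hσ, mul_one, abs_of_nonneg ht, mul_assoc]
      refine mul_le_mul_of_nonneg_left ?_ ht
      calc |dot v τ₀| * |β - dot (grad ζ y) τ₀| ≤ 1 * (M * η) :=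
            mul_le_mul ((Connected.abs_dot_le _ _).trans (by rw [hv, hτ, one_mul])) hβy (abs_nonneg _)
              zero_le_one
        _ = _ := one_mul _
    linarith
  have hsq : ‖a‖ ^ 2 * β ^ 2 / 2 ≤ t ^ 2 * B ^ 2 := by
    rw [hna]
    have := mul_le_mul_of_nonneg_left (pow_le_pow_left₀ (abs_nonneg _) hβB 2) (sq_nonneg t)
    rw [sq_abs] at this
    linarith [mul_nonneg (sq_nonneg t) (sq_nonneg B)]
  have : 0 ≤ t * M * η := by positivity
  simp only [hc, hβ] at *
  linarith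

/-- **The first order change of length.** -/
theorem length_shift_le (h : Band x r S) {ζ : ℂ → ℝ} (hζ : IsTest univ ζ) {f : ℝ → ℝ}
    (hf : Continuous f) {B : ℝ} (hf0 : ∀ s, 0 ≤ f s) (hfB : ∀ s, f s ≤ B)
    (hgrad : ∀ y, grad ζ y = -(f (rad x y) • dir x y)) {v : ℂ} (hv : ‖v‖ = 1) {σ : ℝ}
    (hσ : |σ| = 1) {t : ℝ} (ht : 0 ≤ t) (htB : t * B ≤ 1 / 2) :
    (Measure.hausdorffMeasure 1 (shift ((t * σ) • v) ζ '' S)).toReal ≤
      (Measure.hausdorffMeasure 1 S).toReal +
        t * (-σ * (∫ y in S, f (rad x y) ∂Measure.hausdorffMeasure 1) +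
          B * (∫ y in S, ‖v - dir x y‖ ∂Measure.hausdorffMeasure 1) +
          2 * B * ((Measure.hausdorffMeasure 1 S).toReal - r)) +
        t ^ 2 * B ^ 2 * (Measure.hausdorffMeasure 1 S).toReal := by
  set m := (Measure.hausdorffMeasure 1 : Measure ℂ)
  set HS := (m S).toReal
  have hHS : 0 ≤ HS := ENNReal.toReal_nonneg
  have hr := h.pos
  have hB0 : 0 ≤ B := (hf0 0).trans (hfB 0)
  have : IsFiniteMeasure (m.restrict S) := isFiniteMeasure_restrict.2 h.fin
  set a : ℂ := (t * σ) • v with ha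
  have hna : ‖a‖ = t := by
    rw [ha, norm_smul, hv, mul_one, Real.norm_eq_abs, abs_mul, hσ, mul_one, abs_of_nonneg ht]
  have hb : ∀ y, ‖grad ζ y‖ ≤ B := fun y => by
    rw [hgrad, norm_neg, norm_smul, Real.norm_eq_abs, abs_of_nonneg (hf0 _)]
    calc f (rad x y) * ‖dir x y‖ ≤ B * 1 :=
          mul_le_mul (hfB _) (norm_dir_le _ _) (norm_nonneg _) hB0
      _ = B := mul_one _
  obtain ⟨M, hM⟩ := (hζ.1.fderiv_right (m := ∞) le_rfl).lipschitzWith_of_hasCompactSupport
    (hζ.2.1.fderiv ℝ) (by simp)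
  refine le_of_forall_pos_le_add fun ε hε => ?_
  set k₁ : ℝ := 1 + t * B + t * M with hk₁
  set k₂ : ℝ := 1 + 4 / r with hk₂
  set k : ℝ := k₁ + 2 * t * M + 2 * t * B * k₂ + 2 * t * B * k₂ with hk
  have hk0 : 0 < k := by positivity
  set η := ε / (k * (HS + 1)) with hηd
  have hη : 0 < η := by positivity
  obtain ⟨E, τ, hEm, hEd, hτ, hES, hcone, hrest⟩ := h.pieces η hη η hη
  choose! x₀ hx₀ using fun i (h' : (E i).Nonempty) => h'
  set c : ℕ → ℝ := fun i => min 1 |dot (dir x (x₀ i)) (τ i)| with hc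
  set β : ℕ → ℝ := fun i => dot (grad ζ (x₀ i)) (τ i) with hβ
  set Λ : ℕ → ℝ := fun i => 1 + dot a (τ i) * β i + ‖a‖ ^ 2 * β i ^ 2 / 2 + η * k₁ with hΛ
  have hΛ0 : ∀ i, 0 ≤ Λ i := fun i => by
    have := (norm_nonneg _).trans (norm_add_smul_le (a := a) (hτ i) (β i))
    simp only [hΛ]
    positivity
  have hstr : ∀ i, LipschitzOnWith (Λ i).toNNReal (shift a ζ) (E i) := fun i => by
    rcases (E i).eq_empty_or_nonempty with he | he
    · rw [he]; exact fun p hp => absurd hp (notMem_empty p)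
    · exact shift_piece_lip hζ hb hM (hτ i) hη.le ht hna (hx₀ i he) (hcone i)
  have hnull : ∀ {C : ℝ≥0} {g : ℂ → ℂ}, LipschitzWith C g →
      m (g '' (S \ ⋃ i, E i)) = 0 := fun {C g} hg => by
    have := hg.hausdorffMeasure_image_le zero_le_one (S \ ⋃ i, E i)
    rwa [hrest, mul_zero, nonpos_iff_eq_zero] at this
  have hcnt := tsum_defect_le h hη.le hEm hEd hτ hES hx₀ hcone hrest
  set P := ∑' i, ENNReal.ofReal (1 - c i) * m (E i) with hP
  have hPtop : P ≠ ⊤ := ne_top_of_le_ne_top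
    (ENNReal.mul_ne_top ENNReal.ofReal_ne_top h.fin) (le_self_add.trans hcnt)
  have hPle : P.toReal ≤ (1 + k₂ * η) * HS - r := by
    have := ENNReal.toReal_mono (ENNReal.mul_ne_top ENNReal.ofReal_ne_top h.fin) hcnt
    rw [ENNReal.toReal_add hPtop ENNReal.ofReal_ne_top, ENNReal.toReal_mul,
      ENNReal.toReal_ofReal hr.le, ENNReal.toReal_ofReal (by positivity : 0 ≤ 1 + k₂ * η)] at this
    linarith
  -- the pointwise bound
  set g : ℂ → ℝ := fun y =>
    1 + t * (-σ * f (rad x y) + B * ‖v - dir x y‖) + t ^ 2 * B ^ 2 with hg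
  have hσ2 := abs_le.1 hσ.le
  have hg0 : ∀ y, 0 ≤ g y := fun y => by
    have h1 : |σ * f (rad x y)| ≤ B := by
      rw [abs_mul, hσ, one_mul, abs_of_nonneg (hf0 _)]; exact hfB _
    have h2 := mul_le_mul_of_nonneg_left (abs_le.1 h1).2 ht
    have h3 : 0 ≤ t * (B * ‖v - dir x y‖) := by positivity
    have h4 : 0 ≤ t ^ 2 * B ^ 2 := by positivity
    simp only [hg]
    linarith
  have hdirc : ContinuousOn (dir x) S := fun y hy => by
    have : ‖y - x‖ ≠ 0 := norm_ne_zero_iff.2 (sub_ne_zero.2 (h.ne hy))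
    exact ((continuous_norm.comp (continuous_id.sub continuous_const)).continuousWithinAt.inv₀
      this).smul (continuous_id.sub continuous_const).continuousWithinAt
  have hfr : Integrable (fun y => f (rad x y)) (m.restrict S) :=
    (integrable_const B).mono' (hf.comp (continuous_rad x)).aestronglyMeasurable
      (Eventually.of_forall fun y => by
        rw [Real.norm_eq_abs, abs_of_nonneg (hf0 _)]; exact hfB _)
  have hdv : Integrable (fun y => ‖v - dir x y‖) (m.restrict S) :=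
    (integrable_const (2 : ℝ)).mono'
      ((continuousOn_const.sub hdirc).norm.aestronglyMeasurable h.meas)
      (Eventually.of_forall fun y => by
        rw [norm_norm]
        refine (norm_sub_le _ _).trans ?_
        linarith [norm_dir_le x y])
  have hgint : Integrable g (m.restrict S) :=
    ((integrable_const (1 : ℝ)).fun_add (((hfr.const_mul _).fun_add (hdv.const_mul _)).const_mul
      _)).fun_add (integrable_const _)
  set κ := 2 * t * B
  have hκ : 0 ≤ κ := by positivity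
  set k' : ℝ := k₁ + 2 * t * M + κ * k₂ with hk'
  have hpiece : ∀ i, ENNReal.ofReal (Λ i) * m (E i) ≤
      (∫⁻ y in E i, ENNReal.ofReal (g y) ∂m) +
        (ENNReal.ofReal κ * (ENNReal.ofReal (1 - c i) * m (E i)) +
          ENNReal.ofReal (k' * η) * m (E i)) := by
    intro i
    have hc1 : c i ≤ 1 := min_le_left _ _
    have e : ENNReal.ofReal κ * (ENNReal.ofReal (1 - c i) * m (E i)) +
        ENNReal.ofReal (k' * η) * m (E i) =
        ∫⁻ _y in E i, ENNReal.ofReal (κ * (1 - c i) + k' * η) ∂m := by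
      rw [setLIntegral_const, ENNReal.ofReal_add (mul_nonneg hκ (by linarith)) (by positivity),
        ENNReal.ofReal_mul hκ]
      ring
    rw [e, ← setLIntegral_const, ← lintegral_add_right _ measurable_const]
    refine setLIntegral_mono' (hEm i) fun y hy => ?_
    rw [← ENNReal.ofReal_add (hg0 y) (by
      have : 0 ≤ κ * (1 - c i) := mul_nonneg hκ (by linarith)
      positivity)]
    refine ENNReal.ofReal_le_ofReal ?_
    have h0 := hx₀ i ⟨y, hy⟩
    exact piece_weight_le h hM hf0 hfB hgrad hb hv hσ ht hη.le (hτ i) (hES i h0) (hES i hy)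
      (hcone i y hy _ h0).1
  obtain ⟨C, hC⟩ := exists_lipschitz_shift hζ a
  have htot : m (shift a ζ '' S) ≤ ENNReal.ofReal (∫ y in S, g y ∂m) +
      (ENNReal.ofReal κ * P + ENNReal.ofReal (k' * η) * m S) := by
    calc m (shift a ζ '' S)
        ≤ m (shift a ζ '' (⋃ i, E i)) + m (shift a ζ '' (S \ ⋃ i, E i)) := by
          refine le_trans (measure_mono ?_) (measure_union_le _ _)
          rw [← image_union]
          exact image_mono fun y hy => (em (y ∈ ⋃ i, E i)).imp id fun h' => ⟨hy, h'⟩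
      _ = m (shift a ζ '' (⋃ i, E i)) := by rw [hnull hC, add_zero]
      _ ≤ ∑' i, m (shift a ζ '' E i) := by rw [image_iUnion]; exact measure_iUnion_le _
      _ ≤ ∑' i, ENNReal.ofReal (Λ i) * m (E i) := ENNReal.tsum_le_tsum fun i => by
          have := (hstr i).hausdorffMeasure_image_le (d := 1) zero_le_one
          rwa [ENNReal.rpow_one] at this
      _ ≤ _ := ENNReal.tsum_le_tsum hpiece
      _ ≤ _ := by
          rw [ENNReal.tsum_add, ENNReal.tsum_add, ENNReal.tsum_mul_left, ENNReal.tsum_mul_left]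
          refine add_le_add ?_ (add_le_add le_rfl ?_)
          · rw [← lintegral_iUnion hEm hEd,
              ofReal_integral_eq_lintegral_ofReal hgint (Eventually.of_forall hg0)]
            exact lintegral_mono_set (iUnion_subset hES)
          · rw [← measure_iUnion hEd hEm]
            gcongr
            exact iUnion_subset hES
  have f1 : ENNReal.ofReal κ * P ≠ ⊤ := ENNReal.mul_ne_top ENNReal.ofReal_ne_top hPtop
  have f2 : ENNReal.ofReal (k' * η) * m S ≠ ⊤ := ENNReal.mul_ne_top ENNReal.ofReal_ne_top h.fin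
  have hreal := ENNReal.toReal_mono
    (ENNReal.add_ne_top.2 ⟨ENNReal.ofReal_ne_top, ENNReal.add_ne_top.2 ⟨f1, f2⟩⟩) htot
  rw [ENNReal.toReal_add ENNReal.ofReal_ne_top (ENNReal.add_ne_top.2 ⟨f1, f2⟩),
    ENNReal.toReal_add f1 f2, ENNReal.toReal_mul, ENNReal.toReal_mul,
    ENNReal.toReal_ofReal (integral_nonneg hg0), ENNReal.toReal_ofReal hκ,
    ENNReal.toReal_ofReal (by positivity)] at hreal
  have hint : ∫ y in S, g y ∂m = HS + t * (-σ * (∫ y in S, f (rad x y) ∂m) +
      B * (∫ y in S, ‖v - dir x y‖ ∂m)) + t ^ 2 * B ^ 2 * HS := by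
    simp only [hg]
    rw [integral_add ((integrable_const _).fun_add
        (((hfr.const_mul _).fun_add (hdv.const_mul _)).const_mul _)) (integrable_const _),
      integral_add (integrable_const _) (((hfr.const_mul _).fun_add (hdv.const_mul _)).const_mul _),
      integral_const_mul, integral_add (hfr.const_mul _) (hdv.const_mul _), integral_const_mul,
      integral_const_mul, setIntegral_const, setIntegral_const, measureReal_def, smul_eq_mul,
      smul_eq_mul, mul_one]
    ring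
  have herr : (κ * k₂ + k') * η * HS ≤ ε := by
    have h1 : (κ * k₂ + k') = k := by simp only [hk', hk, κ]; ring
    rw [h1, hηd]
    have : k * (ε / (k * (HS + 1))) = ε / (HS + 1) := by field_simp
    rw [this, div_mul_eq_mul_div, div_le_iff₀ (by positivity)]
    nlinarith
  refine hreal.trans ?_
  have := mul_le_mul_of_nonneg_left hPle hκ
  rw [hint]
  simp only [κ] at this herr ⊢
  linarith

end Vale.Agent.P128.Bonnet.Unit
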