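import Vale.Agent.P128.Bonnet.Interface
import Vale.Agent.P128.Bonnet.Unit.Length
import Vale.Agent.P128.Classify.Polar
import Vale.Agent.P128.Connected.Potential.Exists
import Vale.Agent.P128.Islands.Weak

/-!
# Unit density: momentum fluxes and the energy of a translated configuration

The first order change of the energy under a radial cutoff of a translation is the average of the
momentum flux through the circles.
-/

noncomputable section

namespace Vale.Agent.P128.Bonnet.Unit

open MeasureTheory Filter Metric Set Islands Connected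
open Islands.Weak (step contDiff_step step_eq_zero step_eq_one deriv_step_eq_zero contDiff_deriv_step)
open scoped Topology ENNReal NNReal ContDiff

/-! ### The radial cutoff -/

/-- The weight of the radii. -/
def weight (r s : ℝ) : ℝ := deriv step (2 - s / r) / r

/-- The cutoff: one in the disk of radius `r`, zero outside the disk of radius `2 r`. -/
def cut (x : ℂ) (r : ℝ) (y : ℂ) : ℝ := step (2 - rad x y / r)

lemma deriv_step_nonneg' (s : ℝ) : 0 ≤ deriv step s :=
  (Real.smoothTransition.monotone.comp (fun a b h => by linarith :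
    Monotone fun s : ℝ => 2 * s - 1)).deriv_nonneg

lemma exists_step_bound : ∃ M₀ : ℝ, 0 < M₀ ∧ ∀ s, deriv step s ≤ M₀ := by
  obtain ⟨C, hC⟩ := (isCompact_Icc (a := (1 / 2 : ℝ)) (b := 1)).exists_bound_of_continuousOn
    contDiff_deriv_step.continuous.continuousOn
  refine ⟨max C 1, lt_of_lt_of_le one_pos (le_max_right _ _), fun s => ?_⟩
  by_cases hs : s ∈ Icc (1 / 2 : ℝ) 1
  · exact ((le_abs_self _).trans (hC s hs)).trans (le_max_left _ _)
  · rw [deriv_step_eq_zero (by
      simp only [mem_Icc, not_and_or, not_le] at hs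
      exact hs)]
    exact le_trans zero_le_one (le_max_right _ _)

variable {x : ℂ} {r : ℝ}

lemma continuous_weight (r : ℝ) : Continuous (weight r) :=
  (contDiff_deriv_step.continuous.comp (continuous_const.sub (continuous_id.div_const _))).div_const _

lemma weight_nonneg (hr : 0 < r) (s : ℝ) : 0 ≤ weight r s :=
  div_nonneg (deriv_step_nonneg' _) hr.le

lemma weight_eq_zero (hr : 0 < r) {s : ℝ} (h : s < r ∨ 2 * r ≤ s) : weight r s = 0 := by
  rw [weight, deriv_step_eq_zero, zero_div]
  rcases h with h | h
  · right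
    have : s / r < 1 := (div_lt_one hr).2 h
    linarith
  · left
    have : 2 ≤ s / r := (le_div_iff₀ hr).2 h
    linarith

lemma hasDerivAt_step_sub (_hr : 0 < r) (s : ℝ) :
    HasDerivAt (fun t => step (2 - t / r)) (-weight r s) s := by
  have h := ((contDiff_step.differentiable (by simp)) (2 - s / r)).hasDerivAt.comp s
    (((hasDerivAt_id s).div_const r).const_sub 2)
  refine h.congr_deriv ?_
  simp [weight, div_eq_mul_inv]

lemma integral_weight (hr : 0 < r) : ∫ s in Ioo r (2 * r), weight r s = 1 := by
  have h := intervalIntegral.integral_eq_sub_of_hasDerivAt (a := r) (b := 2 * r)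
    (fun s _ => hasDerivAt_step_sub hr s) ((continuous_weight r).neg.intervalIntegrable _ _)
  rw [intervalIntegral.integral_neg, intervalIntegral.integral_of_le (by linarith),
    integral_Ioc_eq_integral_Ioo] at h
  have e1 : step (2 - 2 * r / r) = 0 :=
    step_eq_zero (by rw [mul_div_assoc, div_self hr.ne']; norm_num)
  have e2 : step (2 - r / r) = 1 := step_eq_one (by rw [div_self hr.ne']; norm_num)
  rw [e1, e2] at h
  linarith

lemma cut_eq_one (hr : 0 < r) {y : ℂ} (h : ‖y - x‖ ≤ r) : cut x r y = 1 := by
  refine step_eq_one ?_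
  have : rad x y / r ≤ 1 := (div_le_one hr).2 h
  linarith

lemma cut_eq_zero (hr : 0 < r) {y : ℂ} (h : 2 * r ≤ ‖y - x‖) : cut x r y = 0 := by
  refine step_eq_zero ?_
  have : 2 ≤ rad x y / r := (le_div_iff₀ hr).2 h
  linarith

lemma cut_eventually (hr : 0 < r) {y : ℂ} (h : y = x) :
    cut x r =ᶠ[𝓝 y] fun _ => (1 : ℝ) := by
  subst h
  filter_upwards [ball_mem_nhds y hr] with z hz
  rw [mem_ball, dist_eq_norm] at hz
  exact cut_eq_one hr hz.le

lemma contDiffAt_rad {y : ℂ} (h : y ≠ x) : ContDiffAt ℝ ∞ (rad x) y :=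
  (contDiffAt_norm ℝ (sub_ne_zero.2 h)).comp y (contDiffAt_id.sub contDiffAt_const)

lemma isTest_cut (x : ℂ) (hr : 0 < r) : IsTest univ (cut x r) := by
  refine ⟨contDiff_iff_contDiffAt.2 fun y => ?_,
    HasCompactSupport.intro (isCompact_closedBall x (2 * r)) fun y hy => ?_, subset_univ _⟩
  · rcases eq_or_ne y x with h | h
    · exact contDiffAt_const.congr_of_eventuallyEq (cut_eventually hr h)
    · exact contDiff_step.contDiffAt.comp y
        (contDiffAt_const.sub ((contDiffAt_rad h).div_const r))
  · refine cut_eq_zero hr ?_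
    rw [mem_closedBall, dist_eq_norm, not_le] at hy
    exact hy.le

lemma grad_rad {y : ℂ} (h : y ≠ x) : grad (rad x) y = dir x y := by
  have h0 : y - x ≠ 0 := sub_ne_zero.2 h
  have hd : HasFDerivAt (fun z : ℂ => ‖z - x‖ ^ 2) (2 • (innerSL ℝ (y - x))) y := by
    simpa using ((hasFDerivAt_id y).sub_const x).norm_sq
  have h1 := hd.sqrt (pow_ne_zero 2 (norm_ne_zero_iff.2 h0))
  have e : (fun z : ℂ => Real.sqrt (‖z - x‖ ^ 2)) = rad x :=
    funext fun z => Real.sqrt_sq (norm_nonneg _)
  rw [e] at h1
  simp only [grad, h1.fderiv, dir]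
  have hn : ‖y - x‖ ≠ 0 := norm_ne_zero_iff.2 h0
  apply Complex.ext <;> simp [Real.sqrt_sq (norm_nonneg _), Complex.inner] <;> field_simp

lemma grad_cut (x : ℂ) (hr : 0 < r) (y : ℂ) :
    grad (cut x r) y = -(weight r (rad x y) • dir x y) := by
  rcases eq_or_ne y x with h | h
  · rw [grad_congr (cut_eventually hr h)]
    have : dir x y = 0 := by simp [dir, h]
    simp [this, grad, Complex.ext_iff]
  · rw [show cut x r = fun z => (fun t => step (2 - t / r)) (rad x z) from rfl,
      grad_comp_real (hasDerivAt_step_sub hr _).differentiableAt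
        ((contDiffAt_rad h).differentiableAt (by simp)), grad_rad h,
      (hasDerivAt_step_sub hr _).deriv, neg_smul]

/-! ### Fluxes on circles -/

/-- The density of the momentum flux. -/
def mom (u : ℂ → ℝ) (x X y : ℂ) : ℝ :=
  ‖grad u y‖ ^ 2 * dot (dir x y) X - 2 * dot (grad u y) (dir x y) * dot (grad u y) X

lemma stress_eq (u : ℂ → ℝ) (x : ℂ) (s : ℝ) (X : ℂ) : stress u x s X = circ (mom u x X) x s := rfl

/-- The momentum flux density is at most the energy density. -/
lemma abs_mom_le (u : ℂ → ℝ) (x X y : ℂ) : |mom u x X y| ≤ ‖grad u y‖ ^ 2 * ‖X‖ := by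
  rcases eq_or_ne y x with h | h
  · have : dir x y = 0 := by simp [dir, h]
    have h2 : 0 ≤ ‖grad u y‖ ^ 2 * ‖X‖ := by positivity
    simpa [mom, this, dot] using h2
  · set G := grad u y
    set n := dir x y
    have hn : ‖n‖ = 1 := norm_dir h
    have e : mom u x X y = dot ((dot G G • n - (2 * dot G n) • G)) X := by
      simp only [mom, norm_sq_eq_dot]
      simp [G, n, dot]; ring
    rw [e]
    refine (Connected.abs_dot_le _ _).trans (mul_le_mul_of_nonneg_right (le_of_eq ?_) (norm_nonneg _))
    have hnn : dot n n = 1 := by rw [← norm_sq_eq_dot, hn, one_pow]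
    refine (sq_eq_sq₀ (norm_nonneg _) (sq_nonneg _)).1 ?_
    rw [norm_sq_eq_dot, norm_sq_eq_dot]
    simp only [dot, Complex.sub_re, Complex.sub_im, Complex.smul_re, Complex.smul_im,
      smul_eq_mul] at hnn ⊢
    linear_combination (G.re * G.re + G.im * G.im) ^ 2 * hnn

lemma measurable_dir (x : ℂ) : Measurable (dir x) := by
  unfold dir
  exact ((measurable_id.sub_const x).norm.inv).smul (measurable_id.sub_const x)

lemma measurable_mom (u : ℂ → ℝ) (x X : ℂ) : Measurable (mom u x X) := by
  have hG := Potential.measurable_grad u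
  have hdot : ∀ {g : ℂ → ℂ}, Measurable g → Measurable fun y => dot (grad u y) (g y) :=
    fun {g} hg => by
      unfold dot
      exact ((Complex.measurable_re.comp hG).mul (Complex.measurable_re.comp hg)).add
        ((Complex.measurable_im.comp hG).mul (Complex.measurable_im.comp hg))
  have h1 : Measurable fun y => dot (dir x y) X := by
    unfold dot
    exact ((Complex.measurable_re.comp (measurable_dir x)).mul_const _).add
      ((Complex.measurable_im.comp (measurable_dir x)).mul_const _)
  unfold mom
  exact ((hG.norm.pow_const 2).mul h1).sub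
    (((hdot (measurable_dir x)).const_mul 2).mul (hdot measurable_const))

/-- The circle integral of the energy is finite. -/
def GoodCircle (u : ℂ → ℝ) (x : ℂ) (s : ℝ) : Prop :=
  0 < s ∧ IntervalIntegrable (fun θ => ‖grad u (circleMap x s θ)‖ ^ 2) volume (-Real.pi) Real.pi

lemma memLp_ball' {u : ℂ → ℝ} {K : Set ℂ} (h : Reg u K) (x : ℂ) (R : ℝ) :
    MemLp (grad u) 2 (volume.restrict (ball x R)) :=
  (h.memLp (‖x‖ + R)).mono_measure (Measure.restrict_mono_set _ fun z hz => by
    rw [mem_ball_zero_iff]
    rw [mem_ball, dist_eq_norm] at hz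
    linarith [norm_le_norm_add_norm_sub' z x])

lemma ae_goodCircle {u : ℂ → ℝ} {K : Set ℂ} (h : Reg u K) (x : ℂ) (R : ℝ) :
    ∀ᵐ s : ℝ, s ∈ Ioo 0 R → GoodCircle u x s := by
  have := Classify.ae_integrableOn_circle ((integrable_indicator_iff measurableSet_ball).2
    ((memLp_ball' h x R).norm.integrable_sq : IntegrableOn (fun y => ‖grad u y‖ ^ 2) (ball x R) volume)) x
  rw [ae_restrict_iff' measurableSet_Ioi] at this
  filter_upwards [this] with s hs hsR
  refine ⟨hsR.1, (hs hsR.1).congr_ae (Eventually.of_forall fun θ => indicator_of_mem ?_ _)⟩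
  simp [circleMap, abs_of_pos hsR.1, hsR.2]

variable {u : ℂ → ℝ} {s : ℝ}

lemma circ_eq (f : ℂ → ℝ) (x : ℂ) (s : ℝ) : circ f x s = Classify.circ f x s := by
  rw [circ, Classify.circ, intervalIntegral.integral_of_le (by linarith [Real.pi_pos])]

lemma GoodCircle.dir_norm (h : GoodCircle u x s) (θ : ℝ) : ‖dir x (circleMap x s θ)‖ = 1 :=
  norm_dir (by simp [h.1.ne'])

lemma GoodCircle.intervalIntegrable_mom (h : GoodCircle u x s) (X : ℂ) :
    IntervalIntegrable (fun θ => mom u x X (circleMap x s θ)) volume (-Real.pi) Real.pi :=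
  (h.2.mul_const ‖X‖).mono_fun'
    ((measurable_mom u x X).comp (continuous_circleMap x s).measurable).aestronglyMeasurable
    (Eventually.of_forall fun _ => abs_mom_le u x X _)

lemma GoodCircle.energy_eq (h : GoodCircle u x s) :
    tang u x s + nor u x s = circ (fun y => ‖grad u y‖ ^ 2) x s := by
  have hG := (Potential.measurable_grad u).comp (continuous_circleMap x s).measurable
  have hd := (measurable_dir x).comp (continuous_circleMap x s).measurable
  have hm : ∀ w : ℂ, ‖w‖ = 1 → IntervalIntegrable (fun θ =>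
      dot (grad u (circleMap x s θ)) (w * dir x (circleMap x s θ)) ^ 2) volume
        (-Real.pi) Real.pi := by
    intro w hw
    refine h.2.mono_fun' ?_ (Eventually.of_forall fun θ => ?_)
    · have hg : Measurable fun θ => w * dir x (circleMap x s θ) := measurable_const.mul hd
      unfold dot
      exact ((((Complex.measurable_re.comp hG).mul (Complex.measurable_re.comp hg)).add
        ((Complex.measurable_im.comp hG).mul
          (Complex.measurable_im.comp hg))).pow_const 2).aestronglyMeasurable
    · simp only [Real.norm_eq_abs, abs_of_nonneg (sq_nonneg (dot _ _))]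
      refine sq_le_sq.2 ?_
      rw [abs_norm]
      exact (Connected.abs_dot_le _ _).trans
        (by rw [norm_mul, hw, h.dir_norm θ, one_mul, mul_one])
  have i1 := hm Complex.I Complex.norm_I
  have i2 := hm 1 norm_one
  simp only [one_mul] at i2
  have hpi : -Real.pi ≤ Real.pi := by linarith [Real.pi_pos]
  simp only [tang, nor, circ, ← intervalIntegral.integral_of_le hpi]
  rw [← mul_add, ← intervalIntegral.integral_add i1 i2]
  congr 1
  refine intervalIntegral.integral_congr fun θ _ => ?_
  have hn : dot (dir x (circleMap x s θ)) (dir x (circleMap x s θ)) = 1 := by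
    rw [← norm_sq_eq_dot, h.dir_norm θ, one_pow]
  simp only [norm_sq_eq_dot]
  simp only [dot, Complex.mul_re, Complex.mul_im, Complex.I_re, Complex.I_im] at hn ⊢
  linear_combination ((grad u (circleMap x s θ)).re * (grad u (circleMap x s θ)).re +
    (grad u (circleMap x s θ)).im * (grad u (circleMap x s θ)).im) * hn

lemma GoodCircle.abs_stress_le (h : GoodCircle u x s) (X : ℂ) :
    |stress u x s X| ≤ ‖X‖ * (tang u x s + nor u x s) := by
  have hpi : -Real.pi ≤ Real.pi := by linarith [Real.pi_pos]
  rw [stress_eq, h.energy_eq, circ_eq, circ_eq, Classify.circ, Classify.circ, abs_mul,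
    abs_of_pos h.1]
  calc s * |∫ θ in -Real.pi..Real.pi, mom u x X (circleMap x s θ)|
      ≤ s * ∫ θ in -Real.pi..Real.pi, |mom u x X (circleMap x s θ)| :=
        mul_le_mul_of_nonneg_left (intervalIntegral.abs_integral_le_integral_abs hpi) h.1.le
    _ ≤ s * ∫ θ in -Real.pi..Real.pi, ‖grad u (circleMap x s θ)‖ ^ 2 * ‖X‖ :=
        mul_le_mul_of_nonneg_left (intervalIntegral.integral_mono_on hpi
          (h.intervalIntegrable_mom X).abs (h.2.mul_const _) fun θ _ => abs_mom_le u x X _) h.1.le
    _ = _ := by rw [intervalIntegral.integral_mul_const]; ring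

lemma GoodCircle.stress_sub (h : GoodCircle u x s) (X Y : ℂ) :
    stress u x s (X - Y) = stress u x s X - stress u x s Y := by
  simp only [stress_eq, circ_eq, Classify.circ]
  rw [← mul_sub, ← intervalIntegral.integral_sub (h.intervalIntegrable_mom X)
    (h.intervalIntegrable_mom Y)]
  congr 1
  refine intervalIntegral.integral_congr fun θ _ => ?_
  simp [mom, dot]; ring

lemma stress_neg (u : ℂ → ℝ) (x : ℂ) (s : ℝ) (X : ℂ) :
    stress u x s (-X) = -stress u x s X := by
  simp only [stress_eq, circ_eq, Classify.circ]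
  rw [← mul_neg, ← intervalIntegral.integral_neg]
  congr 1
  refine intervalIntegral.integral_congr fun θ _ => ?_
  simp [mom, dot]; ring

/-! ### The first order change of the energy -/

/-- The weighted flux through the annulus. -/
def flux (u : ℂ → ℝ) (x : ℂ) (r : ℝ) (v : ℂ) : ℝ :=
  ∫ y, weight r (rad x y) * mom u x v y

lemma integrable_flux {K : Set ℂ} (h : Reg u K) (x : ℂ) (hr : 0 < r) (v : ℂ) :
    Integrable fun y => weight r (rad x y) * mom u x v y := by
  obtain ⟨M₀, -, hM⟩ := exists_step_bound
  refine (integrableOn_iff_integrable_of_support_subset (s := ball x (2 * r)) ?_).1 ?_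
  · intro y hy
    rw [mem_ball, dist_eq_norm]
    by_contra hn
    exact hy (by simp [weight_eq_zero hr (Or.inr (le_of_not_gt hn) : _ ∨ 2 * r ≤ rad x y)])
  · refine ((memLp_ball' h x (2 * r)).norm.integrable_sq.const_mul (M₀ / r * ‖v‖)).mono'
      (((continuous_weight r).comp (continuous_rad x)).aestronglyMeasurable.mul
        (measurable_mom u x v).aestronglyMeasurable) (Eventually.of_forall fun y => ?_)
    rw [Real.norm_eq_abs, abs_mul, abs_of_nonneg (weight_nonneg hr _)]
    calc weight r (rad x y) * |mom u x v y| ≤ M₀ / r * (‖grad u y‖ ^ 2 * ‖v‖) :=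
          mul_le_mul ((div_le_div_iff_of_pos_right hr).2 (hM _)) (abs_mom_le u x v y) (abs_nonneg _)
            (div_nonneg ((deriv_step_nonneg' 0).trans (hM 0)) hr.le)
      _ = _ := by ring

/-- The flux is the average over the radii. -/
lemma flux_eq {K : Set ℂ} (h : Reg u K) (x : ℂ) (hr : 0 < r) (v : ℂ) :
    flux u x r v = ∫ s in Ioo r (2 * r), weight r s * stress u x s v ∧
      IntegrableOn (fun s => weight r s * stress u x s v) (Ioo r (2 * r)) := by
  have hi := integrable_flux h x hr v
  have hsub : Ioo r (2 * r) ⊆ Ioi 0 := fun s hs => hr.trans hs.1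
  constructor
  · rw [flux]
    refine (Classify.integral_radial_mul (h := weight r) (f := mom u x v) hi).trans ?_
    rw [setIntegral_eq_of_subset_of_ae_sdiff_eq_zero measurableSet_Ioi.nullMeasurableSet hsub]
    · simp only [stress_eq, circ_eq]
    · filter_upwards [measure_eq_zero_iff_ae_notMem.1 (measure_singleton (μ := volume) r)]
        with s hs hs'
      rw [weight_eq_zero hr ?_, zero_mul]
      by_contra hn
      simp only [not_or, not_lt, not_le] at hn
      exact hs'.2 ⟨lt_of_le_of_ne hn.1 fun e => hs (by simp [e]), hn.2⟩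
  · refine ((Classify.integrableOn_circ hi x).congr_fun (fun s hs => ?_) measurableSet_Ioi).mono_set
      hsub
    show Classify.circ (fun y => weight r ‖y - x‖ * mom u x v y) x s = _
    rw [Classify.circ_radial_mul (weight r) (mom u x v) x (le_of_lt hs), stress_eq, circ_eq]

/-- **The inequality of minimality against a translated disk.** -/
theorem first_variation {K : Set ℂ} (hu : Reg u K) (hP : ∀ R, ConePieces (K ∩ ball 0 R))
    (hr : 0 < r) (hcov : Ioo r (2 * r) ⊆ rad x '' (K ∩ (ball x (2 * r) \ closedBall x r)))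
    {B : ℝ} (hB : ∀ s, weight r s ≤ B) {v : ℂ} (hv : ‖v‖ = 1) {σ : ℝ} (hσ : |σ| = 1) :
    σ * ((∫ y in K ∩ (ball x (2 * r) \ closedBall x r), weight r (rad x y)
        ∂Measure.hausdorffMeasure 1) + flux u x r v) ≤
      B * (∫ y in K ∩ (ball x (2 * r) \ closedBall x r), ‖v - dir x y‖
        ∂Measure.hausdorffMeasure 1) +
      2 * B * ((Measure.hausdorffMeasure 1 (K ∩ (ball x (2 * r) \ closedBall x r))).toReal - r) := by
  set m := (Measure.hausdorffMeasure 1 : Measure ℂ)
  set S := K ∩ (ball x (2 * r) \ closedBall x r) with hS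
  set ζ := cut x r
  have hζ := isTest_cut x hr
  have hB0 : 0 ≤ B := (weight_nonneg hr 0).trans (hB 0)
  have hb : ∀ y, ‖grad ζ y‖ ≤ B := fun y => by
    rw [grad_cut x hr, norm_neg, norm_smul, Real.norm_eq_abs, abs_of_nonneg (weight_nonneg hr _)]
    calc weight r (rad x y) * ‖dir x y‖ ≤ B * 1 :=
          mul_le_mul (hB _) (norm_dir_le _ _) (norm_nonneg _) hB0
      _ = B := mul_one _
  set ρ := ‖x‖ + 2 * r
  set D := ball (0 : ℂ) (ρ + 1)
  have hball : ball x (2 * r) ⊆ D := fun z hz => by
    rw [mem_ball_zero_iff]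
    rw [mem_ball, dist_eq_norm] at hz
    linarith [norm_le_norm_add_norm_sub' z x]
  have hSD : S ⊆ K ∩ D := fun y hy => ⟨hy.1, hball hy.2.1⟩
  have hSm : MeasurableSet S :=
    hu.isClosed.measurableSet.inter (measurableSet_ball.diff measurableSet_closedBall)
  have hfin : m (K ∩ D) ≠ ⊤ := hu.length_ne_top _
  have hband : Band x r S :=
    ⟨hr, hSm, ne_top_of_le_ne_top hfin (measure_mono hSD), (hP (ρ + 1)).mono hSm hSD,
      fun y hy => by
        have := hy.2.2
        rw [mem_closedBall, dist_eq_norm, not_le] at this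
        exact this.le, hcov⟩
  set G := grad u
  set En₀ := ∫ y in D, ‖G y‖ ^ 2
  set L := ∫ y in S, weight r (rad x y) ∂m
  set Q := B * (∫ y in S, ‖v - dir x y‖ ∂m) + 2 * B * ((m S).toReal - r)
  set N := B ^ 2 * (m S).toReal + 2 * B ^ 2 * En₀
  have main : ∀ t : ℝ, 0 < t → t * B ≤ 1 / 2 →
      0 ≤ -σ * (L + flux u x r v) + Q + t * N := by
    intro t ht htB
    set a : ℂ := (t * σ) • v with ha
    have hna : ‖a‖ = t := by
      rw [ha, norm_smul, hv, mul_one, Real.norm_eq_abs, abs_mul, hσ, mul_one, abs_of_pos ht]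
    have z0 : ∀ y, y ∉ closedBall (0 : ℂ) ρ → ζ y = 0 := fun y hy => by
      refine cut_eq_zero hr ?_
      rw [mem_closedBall_zero_iff, not_le] at hy
      linarith [norm_le_norm_add_norm_sub' y x]
    have hW : ∀ y : ℂ, grad (fun _ => (0 : ℝ)) y = 0 := fun y => by simp [grad, Complex.ext_iff]
    obtain ⟨hint, hvar⟩ := vary_shift hu hζ (W := fun _ => 0) contDiffOn_const
      (by rw [funext hW]; exact MemLp.zero') z0 (fun y _ => rfl) hB0 hb
      (a := a) (by rw [hna]; exact htB)
    simp only [hW, add_zero] at hint hvar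
    -- length
    have hlen : (m (shift a ζ '' (K ∩ D))).toReal - (m (K ∩ D)).toReal ≤
        t * (-σ * L + Q) + t ^ 2 * B ^ 2 * (m S).toReal := by
      set P₁ := K ∩ D ∩ closedBall x r
      set P₃ := (K ∩ D) \ ball x (2 * r)
      have hsplit : K ∩ D = (P₁ ∪ S) ∪ P₃ := by
        ext y
        refine ⟨fun hy => ?_, ?_⟩
        · by_cases h2 : y ∈ ball x (2 * r)
          · by_cases h1 : y ∈ closedBall x r
            · exact Or.inl (Or.inl ⟨hy, h1⟩)
            · exact Or.inl (Or.inr ⟨hy.1, h2, h1⟩)
          · exact Or.inr ⟨hy, h2⟩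
        · rintro ((h | h) | h)
          exacts [h.1, hSD h, h.1]
      have d1 : Disjoint P₁ S := disjoint_left.2 fun y hy hy' => hy'.2.2 hy.2
      have d2 : Disjoint (P₁ ∪ S) P₃ := disjoint_left.2 fun y hy hy' => hy'.2 (by
        rcases hy with h | h
        · exact closedBall_subset_ball (by linarith) h.2
        · exact h.2.1)
      have m1 : MeasurableSet P₁ :=
        (hu.isClosed.measurableSet.inter measurableSet_ball).inter measurableSet_closedBall
      have f1 : m P₁ ≠ ⊤ := ne_top_of_le_ne_top hfin (measure_mono inter_subset_left)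
      have f3 : m P₃ ≠ ⊤ := ne_top_of_le_ne_top hfin (measure_mono sdiff_subset)
      have e0 : (m (K ∩ D)).toReal = (m P₁).toReal + (m S).toReal + (m P₃).toReal := by
        have m3 : MeasurableSet P₃ :=
          (hu.isClosed.measurableSet.inter measurableSet_ball).diff measurableSet_ball
        rw [hsplit, measure_union d2 m3, measure_union d1 hSm,
          ENNReal.toReal_add (ENNReal.add_ne_top.2 ⟨f1, hband.fin⟩) f3,
          ENNReal.toReal_add f1 hband.fin]
      have s1 : shift a ζ '' P₁ = (fun y => a + y) '' P₁ := image_congr fun y hy => by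
        have := hy.2
        rw [mem_closedBall, dist_eq_norm] at this
        simp [shift, ζ, cut_eq_one hr this, add_comm]
      have s3 : shift a ζ '' P₃ = P₃ := by
        conv_rhs => rw [← image_id P₃]
        refine image_congr fun y hy => ?_
        have := hy.2
        rw [mem_ball, dist_eq_norm, not_lt] at this
        simp [shift, ζ, cut_eq_zero hr this]
      have e1 : m (shift a ζ '' (K ∩ D)) ≤ m P₁ + m (shift a ζ '' S) + m P₃ := by
        rw [hsplit, image_union, image_union, s1, s3]
        refine (measure_union_le _ _).trans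
          (add_le_add ((measure_union_le _ _).trans (add_le_add (le_of_eq ?_) le_rfl)) le_rfl)
        rw [show (fun y => a + y) = ⇑(IsometryEquiv.addLeft a) from rfl,
          IsometryEquiv.hausdorffMeasure_image]
      have fS : m (shift a ζ '' S) ≠ ⊤ := shift_length_ne_top hζ a hband.fin
      have e2 := ENNReal.toReal_mono
        (ENNReal.add_ne_top.2 ⟨ENNReal.add_ne_top.2 ⟨f1, fS⟩, f3⟩) e1
      rw [ENNReal.toReal_add (ENNReal.add_ne_top.2 ⟨f1, fS⟩) f3, ENNReal.toReal_add f1 fS] at e2
      have e3 := length_shift_le hband hζ (continuous_weight r) (weight_nonneg hr) hB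
        (grad_cut x hr) hv hσ ht.le htB
      simp only [L, Q]
      linarith
    -- energy
    have hpt : ∀ y, pullVal a (grad ζ y) (G y) ≤ ‖G y‖ ^ 2 -
        t * σ * (weight r (rad x y) * mom u x v y) + 2 * t ^ 2 * B ^ 2 * ‖G y‖ ^ 2 := by
      intro y
      set b := grad ζ y with hbd
      have hz : |dot a b| ≤ 1 / 2 :=
        ((Connected.abs_dot_le _ _).trans
          (mul_le_mul (le_of_eq hna) (hb y) (norm_nonneg _) ht.le)).trans htB
      obtain ⟨hlo, -⟩ := abs_le.1 hz
      have e : (1 + dot a b) * dot (G y) (G y) - 2 * dot a (G y) * dot b (G y) =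
          ‖G y‖ ^ 2 - t * σ * (weight r (rad x y) * mom u x v y) := by
        simp only [mom, norm_sq_eq_dot, hbd, ha, ζ, grad_cut x hr y]
        simp [G, dot]; ring
      have hq : dot b b * dot a (G y) ^ 2 / (1 + dot a b) ≤ 2 * t ^ 2 * B ^ 2 * ‖G y‖ ^ 2 := by
        rw [div_le_iff₀ (by linarith)]
        have h1 : dot b b ≤ B ^ 2 := by
          rw [← norm_sq_eq_dot]; exact pow_le_pow_left₀ (norm_nonneg _) (hb y) 2
        have h2 : dot a (G y) ^ 2 ≤ (t * ‖G y‖) ^ 2 := by
          rw [← sq_abs (dot a (G y))]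
          exact pow_le_pow_left₀ (abs_nonneg _) (hna ▸ Connected.abs_dot_le a (G y)) 2
        calc dot b b * dot a (G y) ^ 2 ≤ B ^ 2 * (t * ‖G y‖) ^ 2 :=
              mul_le_mul h1 h2 (sq_nonneg _) (sq_nonneg _)
          _ = 2 * t ^ 2 * B ^ 2 * ‖G y‖ ^ 2 * (1 / 2) := by ring
          _ ≤ _ := mul_le_mul_of_nonneg_left (by linarith) (by positivity)
      simp only [pullVal]
      linarith
    have iG : IntegrableOn (fun y => ‖G y‖ ^ 2) D := (hu.memLp _).norm.integrable_sq
    have iF : IntegrableOn (fun y => weight r (rad x y) * mom u x v y) D :=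
      (integrable_flux hu x hr v).integrableOn
    have hen : (∫ y in D, pullVal a (grad ζ y) (G y)) ≤
        En₀ - t * σ * flux u x r v + 2 * t ^ 2 * B ^ 2 * En₀ := by
      have hfl : ∫ y in D, weight r (rad x y) * mom u x v y = flux u x r v :=
        setIntegral_eq_integral_of_forall_compl_eq_zero fun y hy => by
          have : 2 * r ≤ rad x y := le_of_not_gt fun h => hy (hball (by
            rw [mem_ball, dist_eq_norm]; exact h))
          rw [weight_eq_zero hr (Or.inr this), zero_mul]
      refine (integral_mono hint ((iG.sub (iF.const_mul _)).add (iG.const_mul _)) hpt).trans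
        (le_of_eq ?_)
      simp only [Pi.add_apply, Pi.sub_apply]
      rw [integral_add (iG.sub' (iF.const_mul _)) (iG.const_mul _), integral_sub iG (iF.const_mul _),
        integral_const_mul, integral_const_mul, hfl]
    have : 0 ≤ t * (-σ * (L + flux u x r v) + Q + t * N) := by
      simp only [N]; linarith
    exact nonneg_of_mul_nonneg_right this ht
  have hlim : Tendsto (fun t : ℝ => -σ * (L + flux u x r v) + Q + t * N) (𝓝[>] 0)
      (𝓝 (-σ * (L + flux u x r v) + Q)) := by
    have : Continuous fun t : ℝ => -σ * (L + flux u x r v) + Q + t * N := by fun_prop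
    simpa using (this.tendsto 0).mono_left nhdsWithin_le_nhds
  have h0 : 0 ≤ -σ * (L + flux u x r v) + Q := by
    refine ge_of_tendsto hlim ?_
    have hp : (0 : ℝ) < 1 / (2 * (B + 1)) := by positivity
    filter_upwards [Ioo_mem_nhdsGT hp] with t ht
    refine main t ht.1 ?_
    have := ht.2.le
    rw [le_div_iff₀ (by positivity)] at this
    linarith [ht.1]
  simp only [Q, L] at h0 ⊢
  linarith

end Vale.Agent.P128.Bonnet.Unit
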